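import Mathlib

/-!
# P162 pool jobs A and B (helper24)

* `tv_compare`: two stochastic matrices that agree on the rows outside a bad set; the
  `l_1` distance of the `m`-step laws is at most twice the expected number of visits of the
  first chain to the bad set before time `m`.
* `prod_tv`: hybrid bound for the `l_1` distance of product laws.
-/

namespace Vale.Agent.Lib.P162.H24

open Finset BigOperators

/-- A stochastic matrix contracts the `l_1` norm of row vectors. -/
theorem l1_vecMul_le {S : Type*} [Fintype S] (B : Matrix S S ℝ)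
    (hB : ∀ z y, 0 ≤ B z y) (hB1 : ∀ z, ∑ y, B z y = 1) (v : S → ℝ) :
    ∑ y, |Matrix.vecMul v B y| ≤ ∑ z, |v z| := by
  calc ∑ y, |Matrix.vecMul v B y| ≤ ∑ y, ∑ z, |v z| * B z y := by
        apply Finset.sum_le_sum
        intro y _
        simp only [Matrix.vecMul, dotProduct]
        calc |∑ z, v z * B z y| ≤ ∑ z, |v z * B z y| := Finset.abs_sum_le_sum_abs _ _
          _ = ∑ z, |v z| * B z y := by
            apply Finset.sum_congr rfl
            intro z _
            rw [abs_mul, abs_of_nonneg (hB z y)]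
    _ = ∑ z, |v z| * ∑ y, B z y := by
        rw [Finset.sum_comm]
        apply Finset.sum_congr rfl
        intro z _
        rw [Finset.mul_sum]
    _ = ∑ z, |v z| := by simp [hB1]

/-- The laws of a chain with nonnegative kernel started from a nonnegative vector are
nonnegative. -/
theorem vecMul_pow_nonneg {S : Type*} [Fintype S] [DecidableEq S] (A : Matrix S S ℝ)
    (hA : ∀ z y, 0 ≤ A z y) (μ : S → ℝ) (hμ : ∀ z, 0 ≤ μ z) (m : ℕ) :
    ∀ z, 0 ≤ Matrix.vecMul μ (A ^ m) z := by
  induction m with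
  | zero => simpa using hμ
  | succ m ih =>
    intro y
    rw [pow_succ, ← Matrix.vecMul_vecMul]
    simp only [Matrix.vecMul, dotProduct]
    exact Finset.sum_nonneg fun z _ => mul_nonneg (ih z) (hA z y)

/-- One step with two kernels that agree off the bad set. -/
theorem l1_vecMul_sub_le {S : Type*} [Fintype S] (A B : Matrix S S ℝ)
    (hA : ∀ z y, 0 ≤ A z y) (hA1 : ∀ z, ∑ y, A z y = 1)
    (hB : ∀ z y, 0 ≤ B z y) (hB1 : ∀ z, ∑ y, B z y = 1)
    (bd : S → Prop) [DecidablePred bd] (hAB : ∀ z, ¬ bd z → A z = B z)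
    (ν : S → ℝ) (hν : ∀ z, 0 ≤ ν z) :
    ∑ y, |Matrix.vecMul ν (A - B) y| ≤ 2 * ∑ z ∈ univ.filter bd, ν z := by
  have hrow : ∀ z, ∑ y, |A z y - B z y| ≤ if bd z then 2 else 0 := by
    intro z
    by_cases hz : bd z
    · rw [if_pos hz]
      calc ∑ y, |A z y - B z y| ≤ ∑ y, (A z y + B z y) := by
            apply Finset.sum_le_sum
            intro y _
            rw [abs_le]
            constructor <;> linarith [hA z y, hB z y]
        _ = 2 := by rw [Finset.sum_add_distrib, hA1, hB1]; norm_num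
    · rw [if_neg hz]
      have : A z = B z := hAB z hz
      simp [this]
  calc ∑ y, |Matrix.vecMul ν (A - B) y| ≤ ∑ y, ∑ z, ν z * |A z y - B z y| := by
        apply Finset.sum_le_sum
        intro y _
        simp only [Matrix.vecMul, dotProduct, Matrix.sub_apply]
        calc |∑ z, ν z * (A z y - B z y)| ≤ ∑ z, |ν z * (A z y - B z y)| :=
              Finset.abs_sum_le_sum_abs _ _
          _ = ∑ z, ν z * |A z y - B z y| := by
            apply Finset.sum_congr rfl
            intro z _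
            rw [abs_mul, abs_of_nonneg (hν z)]
    _ = ∑ z, ν z * ∑ y, |A z y - B z y| := by
        rw [Finset.sum_comm]
        apply Finset.sum_congr rfl
        intro z _
        rw [Finset.mul_sum]
    _ ≤ ∑ z, ν z * (if bd z then 2 else 0) := by
        apply Finset.sum_le_sum
        intro z _
        exact mul_le_mul_of_nonneg_left (hrow z) (hν z)
    _ = 2 * ∑ z ∈ univ.filter bd, ν z := by
        rw [Finset.mul_sum, Finset.sum_filter]
        apply Finset.sum_congr rfl
        intro z _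
        split_ifs <;> ring

/-- **Job A.** Comparison of two chains that agree off a bad set. -/
theorem tv_compare {S : Type*} [Fintype S] [DecidableEq S] (A B : Matrix S S ℝ)
    (hA : ∀ z y, 0 ≤ A z y) (hA1 : ∀ z, ∑ y, A z y = 1)
    (hB : ∀ z y, 0 ≤ B z y) (hB1 : ∀ z, ∑ y, B z y = 1)
    (bd : S → Prop) [DecidablePred bd] (hAB : ∀ z, ¬ bd z → A z = B z)
    (μ : S → ℝ) (hμ : ∀ z, 0 ≤ μ z) (m : ℕ) :
    ∑ y, |(Matrix.vecMul μ (A ^ m)) y - (Matrix.vecMul μ (B ^ m)) y|
      ≤ 2 * ∑ i ∈ range m, ∑ z ∈ univ.filter bd, (Matrix.vecMul μ (A ^ i)) z := by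
  induction m with
  | zero => simp
  | succ m ih =>
    have hνnn := vecMul_pow_nonneg A hA μ hμ m
    have h1 := l1_vecMul_sub_le A B hA hA1 hB hB1 bd hAB _ hνnn
    have h2 := l1_vecMul_le B hB hB1 (Matrix.vecMul μ (A ^ m) - Matrix.vecMul μ (B ^ m))
    have hsplit : ∀ y, Matrix.vecMul μ (A ^ (m + 1)) y - Matrix.vecMul μ (B ^ (m + 1)) y
        = Matrix.vecMul (Matrix.vecMul μ (A ^ m)) (A - B) y
          + Matrix.vecMul (Matrix.vecMul μ (A ^ m) - Matrix.vecMul μ (B ^ m)) B y := by
      intro y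
      rw [pow_succ, pow_succ, ← Matrix.vecMul_vecMul, ← Matrix.vecMul_vecMul,
        Matrix.vecMul_sub, Matrix.sub_vecMul]
      simp only [Pi.sub_apply]
      ring
    calc ∑ y, |Matrix.vecMul μ (A ^ (m + 1)) y - Matrix.vecMul μ (B ^ (m + 1)) y|
        ≤ ∑ y, (|Matrix.vecMul (Matrix.vecMul μ (A ^ m)) (A - B) y|
          + |Matrix.vecMul (Matrix.vecMul μ (A ^ m) - Matrix.vecMul μ (B ^ m)) B y|) := by
          apply Finset.sum_le_sum
          intro y _
          rw [hsplit y]
          exact abs_add_le _ _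
      _ = ∑ y, |Matrix.vecMul (Matrix.vecMul μ (A ^ m)) (A - B) y|
          + ∑ y, |Matrix.vecMul (Matrix.vecMul μ (A ^ m) - Matrix.vecMul μ (B ^ m)) B y| :=
          Finset.sum_add_distrib
      _ ≤ 2 * ∑ z ∈ univ.filter bd, Matrix.vecMul μ (A ^ m) z
          + ∑ z, |(Matrix.vecMul μ (A ^ m) - Matrix.vecMul μ (B ^ m)) z| := add_le_add h1 h2
      _ ≤ 2 * ∑ z ∈ univ.filter bd, Matrix.vecMul μ (A ^ m) z
          + 2 * ∑ i ∈ range m, ∑ z ∈ univ.filter bd, (Matrix.vecMul μ (A ^ i)) z := by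
          have : ∑ z, |(Matrix.vecMul μ (A ^ m) - Matrix.vecMul μ (B ^ m)) z|
              = ∑ y, |(Matrix.vecMul μ (A ^ m)) y - (Matrix.vecMul μ (B ^ m)) y| := by
            simp only [Pi.sub_apply]
          rw [this]
          linarith [ih]
      _ = 2 * ∑ i ∈ range (m + 1), ∑ z ∈ univ.filter bd, (Matrix.vecMul μ (A ^ i)) z := by
          rw [Finset.sum_range_succ]
          ring

/-- The total mass of a product of laws is one. -/
theorem sum_prod_eq_one {α : Type*} [Fintype α] [DecidableEq α] (k : ℕ) (a : Fin k → α → ℝ)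
    (ha1 : ∀ j, ∑ q, a j q = 1) : ∑ y : Fin k → α, ∏ j, a j (y j) = 1 := by
  have h := Finset.prod_univ_sum (fun _ : Fin k => (Finset.univ : Finset α)) a
  rw [Fintype.piFinset_univ] at h
  rw [← h]
  simp [ha1]

/-- **Job B.** Hybrid bound for the `l_1` distance of product laws. -/
theorem prod_tv {α : Type*} [Fintype α] [DecidableEq α] (k : ℕ) (a : Fin k → α → ℝ) (b : α → ℝ)
    (ha : ∀ j q, 0 ≤ a j q) (ha1 : ∀ j, ∑ q, a j q = 1) (hb : ∀ q, 0 ≤ b q) (hb1 : ∑ q, b q = 1) :
    ∑ y : Fin k → α, |∏ j, a j (y j) - ∏ j, b (y j)| ≤ ∑ j, ∑ q, |a j q - b q| := by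
  induction k with
  | zero => simp
  | succ k ih =>
    have ih' := ih (fun j => a j.succ) (fun j q => ha _ q) (fun j => ha1 _)
    have hPa : ∑ y : Fin k → α, ∏ j, a j.succ (y j) = 1 :=
      sum_prod_eq_one k (fun j => a j.succ) (fun j => ha1 _)
    have hre : ∑ y : Fin (k + 1) → α, |∏ j, a j (y j) - ∏ j, b (y j)|
        = ∑ q : α, ∑ y : Fin k → α,
            |a 0 q * ∏ j, a j.succ (y j) - b q * ∏ j, b (y j)| := by
      rw [← Fintype.sum_prod_type' (fun (q : α) (y : Fin k → α) =>
        |a 0 q * ∏ j, a j.succ (y j) - b q * ∏ j, b (y j)|)]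
      symm
      refine Fintype.sum_equiv (Fin.consEquiv (fun _ : Fin (k + 1) => α)) _ _ ?_
      intro p
      rw [Fin.prod_univ_succ, Fin.prod_univ_succ]
      simp only [Fin.consEquiv_apply, Fin.cons_zero, Fin.cons_succ]
    rw [hre, Fin.sum_univ_succ]
    have hpt : ∀ (q : α) (y : Fin k → α),
        |a 0 q * ∏ j, a j.succ (y j) - b q * ∏ j, b (y j)|
          ≤ |a 0 q - b q| * ∏ j, a j.succ (y j)
            + b q * |∏ j, a j.succ (y j) - ∏ j, b (y j)| := by
      intro q y
      have hP : 0 ≤ ∏ j, a j.succ (y j) := Finset.prod_nonneg fun j _ => ha _ _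
      have e : a 0 q * ∏ j, a j.succ (y j) - b q * ∏ j, b (y j)
          = (a 0 q - b q) * ∏ j, a j.succ (y j)
            + b q * (∏ j, a j.succ (y j) - ∏ j, b (y j)) := by ring
      rw [e]
      calc |(a 0 q - b q) * ∏ j, a j.succ (y j)
              + b q * (∏ j, a j.succ (y j) - ∏ j, b (y j))|
          ≤ |(a 0 q - b q) * ∏ j, a j.succ (y j)|
              + |b q * (∏ j, a j.succ (y j) - ∏ j, b (y j))| := abs_add_le _ _
        _ = |a 0 q - b q| * ∏ j, a j.succ (y j)
              + b q * |∏ j, a j.succ (y j) - ∏ j, b (y j)| := by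
            rw [abs_mul, abs_mul, abs_of_nonneg hP, abs_of_nonneg (hb q)]
    calc ∑ q : α, ∑ y : Fin k → α, |a 0 q * ∏ j, a j.succ (y j) - b q * ∏ j, b (y j)|
        ≤ ∑ q : α, ∑ y : Fin k → α, (|a 0 q - b q| * ∏ j, a j.succ (y j)
            + b q * |∏ j, a j.succ (y j) - ∏ j, b (y j)|) :=
          Finset.sum_le_sum fun q _ => Finset.sum_le_sum fun y _ => hpt q y
      _ = ∑ q : α, (|a 0 q - b q| * ∑ y : Fin k → α, ∏ j, a j.succ (y j)
            + b q * ∑ y : Fin k → α, |∏ j, a j.succ (y j) - ∏ j, b (y j)|) := by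
          apply Finset.sum_congr rfl
          intro q _
          rw [Finset.sum_add_distrib, Finset.mul_sum, Finset.mul_sum]
      _ = ∑ q : α, |a 0 q - b q|
            + ∑ y : Fin k → α, |∏ j, a j.succ (y j) - ∏ j, b (y j)| := by
          rw [Finset.sum_add_distrib, hPa, ← Finset.sum_mul, ← Finset.sum_mul, hb1]
          simp
      _ ≤ ∑ q : α, |a 0 q - b q| + ∑ j : Fin k, ∑ q, |a j.succ q - b q| := by
          linarith [ih']

end Vale.Agent.Lib.P162.H24
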