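import Mathlib
import Vale.Agent.Lib.P162.Defs
import Vale.Agent.Lib.P162.helper36.MoveInj
import Vale.Agent.Lib.P162.helper95.KmatBasic
import Vale.Agent.Lib.P162.helper24.TvCompare

/-!
# P162: the distance to the uniform law of the tracked cards does not increase (helper24)

The uniform law on injective `k`-tuples of positions is stationary for the `k`-card chain of the
Thorp shuffle (every shuffle permutes the positions), and a stochastic matrix contracts `l_1`.
Hence the `l_1` distance between the law of the tracked cards after `T` shuffles and the uniform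
law on injective tuples is non-increasing in `T`.
-/

namespace Vale.Agent.Lib.P162.H24

open Finset BigOperators

/-- For a fixed coin vector exactly one tuple of positions is moved to `y`; it is injective
exactly when `y` is. -/
theorem card_preimage (h k : ℕ) [NeZero h] (c : ZMod h → Bool) (y : Fin k → ZMod (2 * h)) :
    ((univ.filter fun z : Fin k → ZMod (2 * h) =>
        Function.Injective z ∧ ∀ j, move h c (z j) = y j).card : ℝ)
      = if Function.Injective y then 1 else 0 := by
  have hinj := H36.move_injective h c
  have hbij : Function.Bijective (move h c) := Finite.injective_iff_bijective.mp hinj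
  let e : ZMod (2 * h) ≃ ZMod (2 * h) := Equiv.ofBijective (move h c) hbij
  by_cases hy : Function.Injective y
  · rw [if_pos hy]
    have hset : (univ.filter fun z : Fin k → ZMod (2 * h) =>
        Function.Injective z ∧ ∀ j, move h c (z j) = y j) = {fun j => e.symm (y j)} := by
      ext z
      rw [mem_filter, mem_singleton]
      constructor
      · rintro ⟨-, -, hz⟩
        funext j
        rw [← hz j]
        exact (e.symm_apply_apply (z j)).symm
      · rintro rfl
        refine ⟨mem_univ _, ?_, fun j => e.apply_symm_apply (y j)⟩
        intro a b hab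
        exact hy (e.symm.injective hab)
    rw [hset, card_singleton, Nat.cast_one]
  · rw [if_neg hy]
    have hset : (univ.filter fun z : Fin k → ZMod (2 * h) =>
        Function.Injective z ∧ ∀ j, move h c (z j) = y j) = ∅ := by
      apply Finset.eq_empty_of_forall_notMem
      intro z hz
      rw [mem_filter] at hz
      obtain ⟨-, hzi, hmv⟩ := hz
      apply hy
      intro a b hab
      apply hzi
      apply hinj
      rw [hmv a, hmv b, hab]
    rw [hset, card_empty, Nat.cast_zero]

/-- The uniform law on injective `k`-tuples is stationary for the `k`-card chain. -/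
theorem unifInj_stationary (h k : ℕ) [NeZero h] (y : Fin k → ZMod (2 * h)) :
    ∑ z, unifInj h k z * Kmat h k z y = unifInj h k y := by
  have hterm : ∀ z : Fin k → ZMod (2 * h), unifInj h k z * Kmat h k z y
      = (1 / ((2 * h).descFactorial k : ℝ)) / 2 ^ h *
        ∑ c : ZMod h → Bool,
          (if Function.Injective z ∧ ∀ j, move h c (z j) = y j then (1 : ℝ) else 0) := by
    intro z
    show (if Function.Injective z then 1 / ((2 * h).descFactorial k : ℝ) else 0)
        * (((univ.filter fun c : ZMod h → Bool => ∀ j, move h c (z j) = y j).card : ℝ) / 2 ^ h)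
      = _
    by_cases hz : Function.Injective z
    · rw [if_pos hz]
      have : ∑ c : ZMod h → Bool,
          (if Function.Injective z ∧ ∀ j, move h c (z j) = y j then (1 : ℝ) else 0)
          = ((univ.filter fun c : ZMod h → Bool => ∀ j, move h c (z j) = y j).card : ℝ) := by
        rw [← Finset.sum_boole]
        apply Finset.sum_congr rfl
        intro c _
        by_cases hc : ∀ j, move h c (z j) = y j
        · rw [if_pos ⟨hz, hc⟩, if_pos hc]
        · rw [if_neg (fun hh => hc hh.2), if_neg hc]
      rw [this]
      ring
    · rw [if_neg hz]
      have : ∑ c : ZMod h → Bool,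
          (if Function.Injective z ∧ ∀ j, move h c (z j) = y j then (1 : ℝ) else 0) = 0 := by
        apply Finset.sum_eq_zero
        intro c _
        rw [if_neg (fun hh => hz hh.1)]
      rw [this]
      ring
  have hcardc : (Fintype.card (ZMod h → Bool) : ℝ) = 2 ^ h := by
    rw [Fintype.card_fun, Fintype.card_bool, ZMod.card]
    push_cast
    ring
  have h2 : (0 : ℝ) < 2 ^ h := by positivity
  calc ∑ z, unifInj h k z * Kmat h k z y
      = ∑ z : Fin k → ZMod (2 * h), (1 / ((2 * h).descFactorial k : ℝ)) / 2 ^ h *
          ∑ c : ZMod h → Bool,
            (if Function.Injective z ∧ ∀ j, move h c (z j) = y j then (1 : ℝ) else 0) :=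
        Finset.sum_congr rfl fun z _ => hterm z
    _ = (1 / ((2 * h).descFactorial k : ℝ)) / 2 ^ h *
          ∑ c : ZMod h → Bool, ∑ z : Fin k → ZMod (2 * h),
            (if Function.Injective z ∧ ∀ j, move h c (z j) = y j then (1 : ℝ) else 0) := by
        rw [← Finset.mul_sum, Finset.sum_comm]
    _ = (1 / ((2 * h).descFactorial k : ℝ)) / 2 ^ h *
          ∑ _c : ZMod h → Bool, (if Function.Injective y then (1 : ℝ) else 0) := by
        congr 1
        apply Finset.sum_congr rfl
        intro c _
        rw [Finset.sum_boole]
        exact card_preimage h k c y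
    _ = unifInj h k y := by
        rw [Finset.sum_const, Finset.card_univ, nsmul_eq_mul, hcardc]
        show _ = (if Function.Injective y then 1 / ((2 * h).descFactorial k : ℝ) else 0)
        by_cases hy : Function.Injective y
        · rw [if_pos hy, if_pos hy]
          field_simp
        · rw [if_neg hy, if_neg hy]
          ring

/-- One more shuffle does not increase the `l_1` distance to the uniform law on injective
tuples. -/
theorem tv_step_le (h k : ℕ) [NeZero h] (x : Fin k → ZMod (2 * h)) (T : ℕ) :
    ∑ y, |(Kmat h k ^ (T + 1)) x y - unifInj h k y|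
      ≤ ∑ y, |(Kmat h k ^ T) x y - unifInj h k y| := by
  have hK0 : ∀ z y, 0 ≤ Kmat h k z y := fun z y => H95.stepProb_nonneg h k z y
  have hK1 : ∀ z, ∑ y, Kmat h k z y = 1 := fun z => H95.stepProb_sum h k z
  have key := l1_vecMul_le (Kmat h k) hK0 hK1 (fun z => (Kmat h k ^ T) x z - unifInj h k z)
  have hrew : ∀ y, Matrix.vecMul (fun z => (Kmat h k ^ T) x z - unifInj h k z) (Kmat h k) y
      = (Kmat h k ^ (T + 1)) x y - unifInj h k y := by
    intro y
    show ∑ z, ((Kmat h k ^ T) x z - unifInj h k z) * Kmat h k z y = _
    rw [pow_succ, Matrix.mul_apply, ← unifInj_stationary h k y, ← Finset.sum_sub_distrib]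
    apply Finset.sum_congr rfl
    intro z _
    ring
  calc ∑ y, |(Kmat h k ^ (T + 1)) x y - unifInj h k y|
      = ∑ y, |Matrix.vecMul (fun z => (Kmat h k ^ T) x z - unifInj h k z) (Kmat h k) y| := by
        apply Finset.sum_congr rfl
        intro y _
        rw [hrew y]
    _ ≤ ∑ z, |(Kmat h k ^ T) x z - unifInj h k z| := key

/-- The `l_1` distance between the law of the tracked cards and the uniform law on injective
tuples is non-increasing in the number of shuffles. -/
theorem tv_antitone (h k : ℕ) [NeZero h] (x : Fin k → ZMod (2 * h)) {S T : ℕ} (hST : S ≤ T) :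
    ∑ y, |(Kmat h k ^ T) x y - unifInj h k y| ≤ ∑ y, |(Kmat h k ^ S) x y - unifInj h k y| := by
  induction T, hST using Nat.le_induction with
  | base => exact le_rfl
  | succ T _ ih => exact (tv_step_le h k x T).trans ih

end Vale.Agent.Lib.P162.H24
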