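import Mathlib
import Vale.Agent.Lib.P162.Defs

/-!
# P162 pool job I (helper24, second copy)

`unif_tv`: the `l_1` distance between the uniform law on `k`-tuples of positions and the uniform
law on injective `k`-tuples is at most `k (k - 1) / n`, `n = 2 h`.
-/

namespace Vale.Agent.Lib.P162.H24

open Finset BigOperators

/-- Weierstrass-type lower bound for the falling factorial, division free:
`(n^k - n (n-1) ... (n-k+1)) * 2n ≤ k (k-1) n^k`. -/
theorem desc_lower (n : ℕ) (hn : 0 < n) (k : ℕ) :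
    ((n : ℝ) ^ k - (n.descFactorial k : ℝ)) * (2 * n) ≤ (k : ℝ) * (k - 1) * (n : ℝ) ^ k := by
  have hN : (0 : ℝ) < n := by exact_mod_cast hn
  induction k with
  | zero => simp
  | succ k ih =>
    have hle : (n.descFactorial k : ℝ) ≤ (n : ℝ) ^ k := by
      exact_mod_cast Nat.descFactorial_le_pow n k
    have hD0 : (0 : ℝ) ≤ (n.descFactorial k : ℝ) := Nat.cast_nonneg _
    have hpow : (0 : ℝ) < (n : ℝ) ^ k := pow_pos hN k
    have hk0 : (0 : ℝ) ≤ (k : ℝ) := Nat.cast_nonneg k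
    rw [Nat.descFactorial_succ]
    by_cases hk : k ≤ n
    · rw [Nat.cast_mul, Nat.cast_sub hk]
      push_cast
      rw [pow_succ]
      have e1 : ((n : ℝ) ^ k * n - ((n : ℝ) - k) * (n.descFactorial k : ℝ)) * (2 * n)
          = n * (((n : ℝ) ^ k - (n.descFactorial k : ℝ)) * (2 * n))
            + 2 * n * k * (n.descFactorial k : ℝ) := by ring
      have h1 : (n : ℝ) * (((n : ℝ) ^ k - (n.descFactorial k : ℝ)) * (2 * n))
          ≤ n * ((k : ℝ) * (k - 1) * (n : ℝ) ^ k) := mul_le_mul_of_nonneg_left ih hN.le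
      have h2 : 2 * (n : ℝ) * k * (n.descFactorial k : ℝ) ≤ 2 * (n : ℝ) * k * (n : ℝ) ^ k :=
        mul_le_mul_of_nonneg_left hle (by positivity)
      rw [e1]
      calc (n : ℝ) * (((n : ℝ) ^ k - (n.descFactorial k : ℝ)) * (2 * n))
            + 2 * n * k * (n.descFactorial k : ℝ)
          ≤ n * ((k : ℝ) * (k - 1) * (n : ℝ) ^ k) + 2 * (n : ℝ) * k * (n : ℝ) ^ k :=
            add_le_add h1 h2
        _ = ((k : ℝ) + 1) * ((k : ℝ) + 1 - 1) * ((n : ℝ) ^ k * n) := by ring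
    · have hk' : n < k := not_le.mp hk
      have hz : n - k = 0 := Nat.sub_eq_zero_of_le hk'.le
      rw [hz]
      have hkr : (n : ℝ) + 1 ≤ (k : ℝ) := by exact_mod_cast hk'
      have hp : (0 : ℝ) < (n : ℝ) ^ (k + 1) := pow_pos hN _
      have h3 : 2 * (n : ℝ) ≤ ((k : ℝ) + 1) * ((k : ℝ) + 1 - 1) := by nlinarith
      push_cast
      have := mul_le_mul_of_nonneg_left h3 hp.le
      linarith

/-- **Job I.** Uniform tuples against uniform injective tuples. -/
theorem unif_tv (h k : ℕ) [NeZero h] :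
    ∑ y : Fin k → ZMod (2 * h), |(1 / (2 * h : ℝ)) ^ k - unifInj h k y|
      ≤ (k : ℝ) * (k - 1) / (2 * h : ℝ) := by
  have hh : 0 < h := Nat.pos_of_ne_zero (NeZero.ne h)
  have hnpos : 0 < 2 * h := by omega
  have hNeq : (2 * h : ℝ) = ((2 * h : ℕ) : ℝ) := by push_cast; ring
  rw [hNeq]
  have hN : (0 : ℝ) < ((2 * h : ℕ) : ℝ) := by exact_mod_cast hnpos
  have key := desc_lower (2 * h) hnpos k
  have hDle : ((2 * h).descFactorial k : ℝ) ≤ ((2 * h : ℕ) : ℝ) ^ k := by
    exact_mod_cast Nat.descFactorial_le_pow (2 * h) k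
  have hP : (0 : ℝ) < ((2 * h : ℕ) : ℝ) ^ k := pow_pos hN k
  have hcP : (1 / ((2 * h : ℕ) : ℝ)) ^ k * ((2 * h : ℕ) : ℝ) ^ k = 1 := by
    rw [← mul_pow, one_div, inv_mul_cancel₀ hN.ne', one_pow]
  have hcpos : 0 < (1 / ((2 * h : ℕ) : ℝ)) ^ k := by positivity
  -- cardinalities
  have hcard_all : (Finset.univ : Finset (Fin k → ZMod (2 * h))).card = (2 * h) ^ k := by
    rw [Finset.card_univ, Fintype.card_fun, ZMod.card, Fintype.card_fin]
  have hcard_inj :
      (univ.filter (fun y : Fin k → ZMod (2 * h) => Function.Injective y)).card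
        = (2 * h).descFactorial k := by
    rw [← Fintype.card_subtype,
      Fintype.card_congr (Equiv.subtypeInjectiveEquivEmbedding (Fin k) (ZMod (2 * h))),
      Fintype.card_embedding_eq, ZMod.card, Fintype.card_fin]
  have hcard_not :
      ((univ.filter (fun y : Fin k → ZMod (2 * h) => ¬ Function.Injective y)).card : ℝ)
        = ((2 * h : ℕ) : ℝ) ^ k - ((2 * h).descFactorial k : ℝ) := by
    have := Finset.card_filter_add_card_filter_not (s := (Finset.univ : Finset (Fin k → ZMod (2 * h))))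
      (fun y : Fin k → ZMod (2 * h) => Function.Injective y)
    rw [hcard_inj, hcard_all] at this
    have h' : (((2 * h).descFactorial k : ℕ) : ℝ)
        + ((univ.filter (fun y : Fin k → ZMod (2 * h) => ¬ Function.Injective y)).card : ℝ)
        = (((2 * h) ^ k : ℕ) : ℝ) := by exact_mod_cast this
    push_cast at h' ⊢
    linarith
  -- pointwise form
  have hpt : ∀ y : Fin k → ZMod (2 * h),
      |(1 / ((2 * h : ℕ) : ℝ)) ^ k - unifInj h k y|
        = if Function.Injective y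
          then |(1 / ((2 * h : ℕ) : ℝ)) ^ k - 1 / ((2 * h).descFactorial k : ℝ)|
          else (1 / ((2 * h : ℕ) : ℝ)) ^ k := by
    intro y
    unfold unifInj
    split_ifs
    · rfl
    · rw [sub_zero, abs_of_pos hcpos]
  rw [Finset.sum_congr rfl (fun y _ => hpt y), Finset.sum_ite, Finset.sum_const, Finset.sum_const,
    nsmul_eq_mul, nsmul_eq_mul, hcard_inj, hcard_not]
  rw [le_div_iff₀ hN]
  rcases Nat.eq_zero_or_pos ((2 * h).descFactorial k) with hD | hD
  · rw [hD] at key ⊢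
    simp only [Nat.cast_zero, sub_zero, zero_mul, zero_add] at key ⊢
    have hPc : ((2 * h : ℕ) : ℝ) ^ k * (1 / ((2 * h : ℕ) : ℝ)) ^ k = 1 := by
      rw [mul_comm]; exact hcP
    have h2 : 2 * ((2 * h : ℕ) : ℝ) ≤ (k : ℝ) * (k - 1) := by
      have h3 : ((2 * h : ℕ) : ℝ) ^ k * (2 * ((2 * h : ℕ) : ℝ))
          ≤ ((2 * h : ℕ) : ℝ) ^ k * ((k : ℝ) * (k - 1)) := by
        rw [mul_comm (((2 * h : ℕ) : ℝ) ^ k) ((k : ℝ) * (k - 1))]
        exact key
      exact le_of_mul_le_mul_left h3 hP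
    rw [hPc]
    linarith
  · have hDr : (0 : ℝ) < ((2 * h).descFactorial k : ℝ) := by exact_mod_cast hD
    have hcle : (1 / ((2 * h : ℕ) : ℝ)) ^ k ≤ 1 / ((2 * h).descFactorial k : ℝ) := by
      rw [one_div_pow]
      exact one_div_le_one_div_of_le hDr hDle
    rw [abs_of_nonpos (by linarith), neg_sub, mul_sub, mul_one_div_cancel hDr.ne']
    -- goal: (1 - D c + (P - D) c) * N ≤ k (k-1)
    have e : (1 - ((2 * h).descFactorial k : ℝ) * (1 / ((2 * h : ℕ) : ℝ)) ^ k
          + (((2 * h : ℕ) : ℝ) ^ k - ((2 * h).descFactorial k : ℝ)) * (1 / ((2 * h : ℕ) : ℝ)) ^ k)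
          * ((2 * h : ℕ) : ℝ)
        = (((2 * h : ℕ) : ℝ) ^ k - ((2 * h).descFactorial k : ℝ)) * (2 * ((2 * h : ℕ) : ℝ))
          * (1 / ((2 * h : ℕ) : ℝ)) ^ k := by
      have : (1 : ℝ) = (1 / ((2 * h : ℕ) : ℝ)) ^ k * ((2 * h : ℕ) : ℝ) ^ k := hcP.symm
      nth_rewrite 1 [this]
      ring
    rw [e]
    calc (((2 * h : ℕ) : ℝ) ^ k - ((2 * h).descFactorial k : ℝ)) * (2 * ((2 * h : ℕ) : ℝ))
          * (1 / ((2 * h : ℕ) : ℝ)) ^ k
        ≤ ((k : ℝ) * (k - 1) * ((2 * h : ℕ) : ℝ) ^ k) * (1 / ((2 * h : ℕ) : ℝ)) ^ k :=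
          mul_le_mul_of_nonneg_right key hcpos.le
      _ = (k : ℝ) * (k - 1) := by
          rw [mul_assoc, mul_comm (((2 * h : ℕ) : ℝ) ^ k), hcP, mul_one]

end Vale.Agent.Lib.P162.H24
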